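import Mathlib

namespace Vale.Agent.Results.P031.TwoRatios

open Filter Topology

/-- `V x` is the number of distinct values `v ≤ x` of Euler's totient function. -/
noncomputable def V (x : ℝ) : ℕ :=
  Set.ncard {v : ℕ | (v : ℝ) ≤ x ∧ ∃ n : ℕ, 1 ≤ n ∧ Nat.totient n = v}

/-- The Erdos-Hall ratio statement for a single dilation factor `c`. -/
def RatioLimit (c : ℝ) : Prop :=
  Tendsto (fun x : ℝ => (V (c * x) : ℝ) / (V x : ℝ)) atTop (𝓝 c)

theorem finite_set (x : ℝ) :
    {v : ℕ | (v : ℝ) ≤ x ∧ ∃ n : ℕ, 1 ≤ n ∧ Nat.totient n = v}.Finite := by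
  apply Set.Finite.subset (Set.finite_Iic ⌊x⌋₊)
  intro v hv
  exact Nat.le_floor hv.1

theorem V_mono {x y : ℝ} (h : x ≤ y) : V x ≤ V y := by
  apply Set.ncard_le_ncard _ (finite_set y)
  intro v hv
  exact ⟨hv.1.trans h, hv.2⟩

theorem V_pos {x : ℝ} (h : 1 ≤ x) : 0 < V x := by
  rw [V, Set.ncard_pos (finite_set x)]
  exact ⟨1, by simpa using h, 1, le_refl 1, by simp⟩

section general

variable (W : ℝ → ℝ) (hmono : Monotone W) (hpos : ∀ x, 1 ≤ x → 0 < W x)

/-- the set of exponents `t` such that the ratio limit holds for `c = exp t` -/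
def goodSubgroup (hpos : ∀ x, 1 ≤ x → 0 < W x) : AddSubgroup ℝ where
  carrier := {t | Tendsto (fun x : ℝ => W (Real.exp t * x) / W x) atTop (𝓝 (Real.exp t))}
  zero_mem' := by
    simp only [Set.mem_ofPred_eq, Real.exp_zero, one_mul]
    apply tendsto_const_nhds.congr'
    filter_upwards [eventually_ge_atTop 1] with x hx
    rw [div_self (hpos x hx).ne']
  add_mem' := by
    intro s t hs ht
    simp only [Set.mem_ofPred_eq] at hs ht ⊢
    have h1 : Tendsto (fun x : ℝ => Real.exp t * x) atTop atTop :=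
      tendsto_id.const_mul_atTop (Real.exp_pos t)
    have h2 := (hs.comp h1).mul ht
    rw [Real.exp_add]
    apply h2.congr'
    filter_upwards [h1.eventually (eventually_ge_atTop 1)] with x hx
    simp only [Function.comp]
    rw [mul_assoc, div_mul_div_cancel₀ (hpos _ hx).ne']
  neg_mem' := by
    intro t ht
    simp only [Set.mem_ofPred_eq] at ht ⊢
    have h1 : Tendsto (fun x : ℝ => Real.exp (-t) * x) atTop atTop :=
      tendsto_id.const_mul_atTop (Real.exp_pos (-t))
    have h2 := (ht.comp h1).inv₀ (Real.exp_pos t).ne'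
    rw [Real.exp_neg]
    apply h2.congr'
    filter_upwards with x
    simp only [Function.comp]
    rw [inv_div, ← mul_assoc, Real.exp_neg, mul_inv_cancel₀ (Real.exp_pos t).ne', one_mul]

include hmono in
theorem tendsto_of_dense (hd : Dense (goodSubgroup W hpos : Set ℝ)) (c : ℝ) (hc : 0 < c) :
    Tendsto (fun x : ℝ => W (c * x) / W x) atTop (𝓝 c) := by
  rw [tendsto_order]
  constructor
  · intro a ha
    have hlt : max a (c / 2) < c := max_lt ha (by linarith)
    have hm0 : 0 < max a (c / 2) := lt_of_lt_of_le (by linarith) (le_max_right _ _)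
    have hlog : Real.log (max a (c / 2)) < Real.log c := Real.log_lt_log hm0 hlt
    obtain ⟨t, ht, htm⟩ := hd.exists_mem_open isOpen_Ioo (Set.nonempty_Ioo.2 hlog)
    have ht' : Tendsto (fun x : ℝ => W (Real.exp t * x) / W x) atTop (𝓝 (Real.exp t)) := ht
    have h1 : a < Real.exp t := by
      have : max a (c / 2) < Real.exp t := (Real.log_lt_iff_lt_exp hm0).1 htm.1
      exact lt_of_le_of_lt (le_max_left _ _) this
    have h2 : Real.exp t < c := (Real.lt_log_iff_exp_lt hc).1 htm.2
    filter_upwards [(tendsto_order.1 ht').1 a h1, eventually_ge_atTop 1] with x hx hx1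
    refine lt_of_lt_of_le hx ?_
    apply div_le_div_of_nonneg_right _ (hpos x hx1).le
    apply hmono
    nlinarith
  · intro a ha
    have hlog : Real.log c < Real.log a := Real.log_lt_log hc ha
    obtain ⟨t, ht, htm⟩ := hd.exists_mem_open isOpen_Ioo (Set.nonempty_Ioo.2 hlog)
    have ht' : Tendsto (fun x : ℝ => W (Real.exp t * x) / W x) atTop (𝓝 (Real.exp t)) := ht
    have h1 : Real.exp t < a := (Real.lt_log_iff_exp_lt (hc.trans ha)).1 htm.2
    have h2 : c < Real.exp t := (Real.log_lt_iff_lt_exp hc).1 htm.1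
    filter_upwards [(tendsto_order.1 ht').2 a h1, eventually_ge_atTop 1] with x hx hx1
    refine lt_of_le_of_lt ?_ hx
    apply div_le_div_of_nonneg_right _ (hpos x hx1).le
    apply hmono
    nlinarith

end general

theorem irrational_log_two_div_log_three : Irrational (Real.log 2 / Real.log 3) := by
  rintro ⟨r, hr⟩
  have hl2 : 0 < Real.log 2 := Real.log_pos (by norm_num)
  have hl3 : 0 < Real.log 3 := Real.log_pos (by norm_num)
  have hrpos : (0 : ℝ) < r := by rw [hr]; positivity
  have hrpos' : 0 < r := by exact_mod_cast hrpos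
  have hnum : 0 < r.num := Rat.num_pos.2 hrpos'
  have hden : 0 < r.den := r.den_pos
  -- r.num * log 3 = r.den * log 2
  have h1 : (r.num : ℝ) * Real.log 3 = (r.den : ℝ) * Real.log 2 := by
    have h2 : (r : ℝ) = (r.num : ℝ) / (r.den : ℝ) := by
      exact_mod_cast (Rat.num_div_den r).symm
    rw [h2] at hr
    have hd : (r.den : ℝ) ≠ 0 := by positivity
    field_simp at hr
    linarith
  obtain ⟨m, hm⟩ : ∃ m : ℕ, r.num = m := ⟨r.num.toNat, (Int.toNat_of_nonneg hnum.le).symm⟩
  have hm0 : 0 < m := by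
    have : (0 : ℤ) < m := hm ▸ hnum
    exact_mod_cast this
  rw [hm] at h1
  have h3 : Real.log ((3 : ℝ) ^ m) = Real.log ((2 : ℝ) ^ r.den) := by
    rw [Real.log_pow, Real.log_pow]
    exact_mod_cast h1
  have h4 : (3 : ℝ) ^ m = (2 : ℝ) ^ r.den :=
    Real.log_injOn_pos (Set.mem_Ioi.2 (by positivity)) (Set.mem_Ioi.2 (by positivity)) h3
  have h5 : (3 : ℕ) ^ m = 2 ^ r.den := by exact_mod_cast h4
  have h6 : Even ((3 : ℕ) ^ m) := by
    rw [h5]
    exact (Nat.even_pow.2 ⟨even_two, hden.ne'⟩)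
  have h7 : ¬ Even ((3 : ℕ) ^ m) := by
    rw [Nat.even_pow]
    rintro ⟨h, -⟩
    exact absurd h (by decide)
  exact h7 h6

theorem general_reduction (c₁ c₂ : ℝ) (h₁ : 0 < c₁) (h₂ : 0 < c₂)
    (hirr : Irrational (Real.log c₁ / Real.log c₂))
    (H₁ : RatioLimit c₁) (H₂ : RatioLimit c₂) : ∀ c : ℝ, 0 < c → RatioLimit c := by
  intro c hc
  have hmono : Monotone (fun x : ℝ => (V x : ℝ)) := fun x y h => by
    show (V x : ℝ) ≤ (V y : ℝ)
    exact_mod_cast V_mono h
  have hpos : ∀ x : ℝ, 1 ≤ x → 0 < (fun x : ℝ => (V x : ℝ)) x :=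
    fun x h => by
      show (0 : ℝ) < (V x : ℝ)
      exact_mod_cast V_pos h
  apply tendsto_of_dense (fun x : ℝ => (V x : ℝ)) hmono hpos _ c hc
  have hd := dense_addSubgroupClosure_pair_iff.2 hirr
  apply hd.mono
  rw [SetLike.coe_subset_coe, AddSubgroup.closure_le]
  intro t ht
  rcases ht with rfl | rfl
  · show Tendsto _ _ _
    rw [Real.exp_log h₁]
    exact H₁
  · show Tendsto _ _ _
    rw [Real.exp_log h₂]
    exact H₂

/-- The Erdos-Hall conjecture `V(cx)/V(x) → c` for all `c > 1` is equivalent to its two special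
cases `c = 2` and `c = 3`; more generally it follows from any two multiplicatively independent
dilation factors. -/
theorem result :
    ((∀ c : ℝ, 1 < c → RatioLimit c) ↔ (RatioLimit 2 ∧ RatioLimit 3)) ∧
    (∀ c₁ c₂ : ℝ, 0 < c₁ → 0 < c₂ → Irrational (Real.log c₁ / Real.log c₂) →
      RatioLimit c₁ → RatioLimit c₂ → ∀ c : ℝ, 0 < c → RatioLimit c) := by
  refine ⟨⟨fun h => ⟨h 2 (by norm_num), h 3 (by norm_num)⟩, fun h c hc => ?_⟩, general_reduction⟩
  exact general_reduction 2 3 (by norm_num) (by norm_num) irrational_log_two_div_log_three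
    h.1 h.2 c (by linarith)

end Vale.Agent.Results.P031.TwoRatios
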